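import Vale.Agent.P096.DefsL
import Vale.Agent.P082.PartT

/-! P096 part LF1a: two vector comparison in a finite corner. -/

namespace Vale.Agent.P096

open scoped InnerProductSpace ComplexOrder ComplexConjugate
open Vale.Agent.P104 Vale.Agent.P104.C Vale.Agent.P104.D Vale.Agent.P082
open Vale.Agent.P082.T hiding df chain_ub

variable {H : Type*} [NormedAddCommGroup H] [InnerProductSpace ℂ H] [CompleteSpace H]
variable {S : Set (H →L[ℂ] H)}

namespace LF1

/-- the defect of a p.i. at a pair of vectors -/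
noncomputable def df (α β : H) (w : H →L[ℂ] H) : ℝ := ‖w α‖ ^ 2 - ‖star w β‖ ^ 2

lemma chain_ub {q : H →L[ℂ] H} (hsq : star q = q) (ξ₀ ξ : H) (c : Set (H →L[ℂ] H))
    (hc : ∀ w ∈ c, w ∈ vN S ∧ w * star w * w = w ∧ w * q = w ∧ q * w = w)
    (hch : ∀ w ∈ c, ∀ w' ∈ c, (w' * (star w * w) = w ∧ df ξ₀ ξ w ≤ df ξ₀ ξ w') ∨
      (w * (star w' * w') = w' ∧ df ξ₀ ξ w' ≤ df ξ₀ ξ w)) :
    ∃ v ∈ vN S, v * star v * v = v ∧ v * q = v ∧ q * v = v ∧
      ∀ w ∈ c, v * (star w * w) = w ∧ df ξ₀ ξ w ≤ df ξ₀ ξ v := by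
  have hiso : ∀ w ∈ c, ∀ w' ∈ c, w' * (star w * w) = w → ∀ α β,
      ⟪w α, w' β⟫_ℂ = ⟪(star w * w) α, (star w' * w') β⟫_ℂ := by
    intro w _ w' _ h α β
    rw [mul_apply_eq_comp (star w'), inner_star_right, ← mul_apply_eq_comp w', h]
  obtain ⟨v, hv, v1, v2, v3, v4, v5, -⟩ := graph_vN (S := S)
    {g | ∃ w ∈ c, ∃ α, g = ((star w * w) α, w α)} (by
      rintro _ ⟨w, hw, α, rfl⟩ _ ⟨w', hw', β, rfl⟩
      rcases hch w hw w' hw' with h | h
      · exact hiso w hw w' hw' h.1 α β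
      · simp only
        rw [← inner_conj_symm, hiso w' hw' w hw h.1 β α, inner_conj_symm]) (by
      rintro s hs _ ⟨w, hw, α, rfl⟩
      have h1 := (hc w hw).1
      refine ⟨w, hw, s α, ?_⟩
      simp only [← mul_apply_eq_comp, Prod.mk.injEq]
      rw [C.mem_vN.1 h1 s hs, C.mem_vN.1 (mul_mem (star_mem h1) h1) s hs]
      exact ⟨rfl, rfl⟩)
  have hvw : ∀ w ∈ c, v * (star w * w) = w := fun w hw => by
    ext α; exact v2 _ ⟨w, hw, α, rfl⟩
  have hvw' : ∀ w ∈ c, star v * w = star w * w := fun w hw => by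
    ext α; exact v3 _ ⟨w, hw, α, rfl⟩
  refine ⟨v, hv, v1, v4 q hsq ?_, v5 q ?_, fun w hw => ⟨hvw w hw, ?_⟩⟩
  · rintro _ ⟨w, hw, α, rfl⟩
    simp only [← mul_apply_eq_comp]
    rw [← mul_assoc, star_right hsq (hc w hw).2.2.1]
  · rintro _ ⟨w, hw, α, rfl⟩
    simp only [← mul_apply_eq_comp]
    rw [(hc w hw).2.2.2]
  have hup : ∀ w₁ ∈ c, ∀ w₂ ∈ c, ∃ w₃ ∈ c, w₃ * (star w₁ * w₁) = w₁ ∧ w₃ * (star w₂ * w₂) = w₂ ∧
      df ξ₀ ξ w₁ ≤ df ξ₀ ξ w₃ := by
    intro w₁ h₁ w₂ h₂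
    rcases hch w₁ h₁ w₂ h₂ with h | h
    · exact ⟨w₂, h₂, h.1, by rw [← mul_assoc, (hc _ h₂).2.1], h.2⟩
    · exact ⟨w₁, h₁, by rw [← mul_assoc, (hc _ h₁).2.1], h.1, le_rfl⟩
  let U : Submodule ℂ H :=
    { carrier := {a | ∃ w ∈ c, ∃ α, a = w α}
      add_mem' := by
        rintro _ _ ⟨w₁, h₁, α, rfl⟩ ⟨w₂, h₂, β, rfl⟩
        obtain ⟨w₃, h₃, e1, e2, -⟩ := hup w₁ h₁ w₂ h₂
        obtain ⟨α', hα⟩ := rng_le e1 α
        obtain ⟨β', hβ⟩ := rng_le e2 β
        exact ⟨w₃, h₃, α' + β', by rw [hα, hβ, map_add]⟩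
      zero_mem' := ⟨w, hw, 0, by simp⟩
      smul_mem' := by
        rintro t _ ⟨w₁, h₁, α, rfl⟩
        exact ⟨w₁, h₁, t • α, by simp⟩ }
  set P := U.topologicalClosure.starProjection with hP
  have pP : IsStarProjection P := isStarProjection_starProjection
  have hsP : star P = P := pP.isSelfAdjoint
  have hPw : ∀ w' ∈ c, P * w' = w' := fun w' hw' => by
    ext α
    exact Submodule.starProjection_eq_self_iff.2 (U.le_topologicalClosure ⟨w', hw', α, rfl⟩)
  have hPv : P * v = v := v5 P (by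
    rintro _ ⟨w', hw', α, rfl⟩
    simp only [← mul_apply_eq_comp]
    rw [hPw w' hw'])
  have hPξ : P ξ ∈ closure (U : Set H) := U.topologicalClosure.starProjection_apply_mem ξ
  refine le_of_forall_pos_le_add fun e he => ?_
  set ε := min 1 (e / (4 * ‖ξ‖ + 4)) with hε
  have hε0 : 0 < ε := lt_min one_pos (by positivity)
  have hε1 : ε ≤ 1 := min_le_left _ _
  have hε2 : ε * (4 * ‖ξ‖ + 4) ≤ e := by
    rw [← le_div_iff₀ (by positivity)]; exact min_le_right _ _
  obtain ⟨_, ⟨w', hw', α, rfl⟩, hd⟩ := Metric.mem_closure_iff.1 hPξ ε hε0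
  obtain ⟨w₃, h₃, -, e2, e3⟩ := hup w hw w' hw'
  obtain ⟨β, hβ⟩ := rng_le e2 α
  rw [hβ, dist_eq_norm] at hd
  have p3 := (hc _ h₃).2.1
  have k1 : ‖star v ξ‖ ≤ ‖P ξ‖ := by
    rw [← star_left hsP hPv, mul_apply_eq_comp]; exact norm_star_pi_le v1 _
  have k2 : ‖w₃ β‖ ≤ ‖star w₃ ξ‖ + ε := by
    have f1 : star w₃ (w₃ β) = star w₃ ξ - star w₃ (P ξ - w₃ β) := by
      rw [map_sub, ← mul_apply_eq_comp (star w₃) P, star_left hsP (hPw _ h₃)]; abel
    rw [← norm_src p3, f1]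
    exact (norm_sub_le _ _).trans (by linarith [norm_star_pi_le p3 (P ξ - w₃ β)])
  have k3 : ‖P ξ‖ ≤ ‖w₃ β‖ + ε := by linarith [norm_sub_norm_le (P ξ) (w₃ β)]
  have k4 : ‖w₃ ξ₀‖ ≤ ‖v ξ₀‖ := by
    have f1 : star w₃ * v = star w₃ * w₃ := by
      have := congrArg star (hvw' _ h₃)
      rwa [star_mul, star_star, star_mul, star_star] at this
    rw [← norm_src p3, ← mul_apply_eq_comp, ← f1, mul_apply_eq_comp]
    exact norm_star_pi_le p3 _
  have k5 : ‖star w₃ ξ‖ ≤ ‖ξ‖ := norm_star_pi_le p3 ξ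
  have k6 : ‖star v ξ‖ ^ 2 ≤ (‖star w₃ ξ‖ + 2 * ε) ^ 2 :=
    pow_le_pow_left₀ (norm_nonneg _) (by linarith) 2
  have k7 : ‖w₃ ξ₀‖ ^ 2 ≤ ‖v ξ₀‖ ^ 2 := pow_le_pow_left₀ (norm_nonneg _) k4 2
  unfold df at e3 ⊢
  nlinarith

end LF1

open LF1 in
theorem corner2 {z : H →L[ℂ] H} (hz : IsCentral S z) (h2 : FinU S z) {q : H →L[ℂ] H}
    (hq : q ∈ vN S) (pq : IsStarProjection q) (hqz : q * z = q) {α β : H}
    (hab : ‖q α‖ ^ 2 < ‖q β‖ ^ 2) :
    ∃ u ∈ vN S, u ≠ 0 ∧ u * star u * u = u ∧ u * q = u ∧ q * u = u ∧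
      ∀ v ∈ vN S, v * star v * v = v → v * (star u * u) = v → star u * u * v = v →
        ‖v α‖ ^ 2 ≤ ‖star v (star u β)‖ ^ 2 := by
  have hqq : q * q = q := pq.isIdempotentElem
  have hsq : star q = q := pq.isSelfAdjoint
  obtain ⟨w₁, hw₁, a1, a2, a3, a4⟩ : ∃ w₁ ∈ vN S, w₁ * star w₁ * w₁ = w₁ ∧ w₁ * q = w₁ ∧
      q * w₁ = w₁ ∧ 0 ≤ df α β w₁ := ⟨0, zero_mem _, by simp, by simp, by simp, by simp [df]⟩
  let X := {w : H →L[ℂ] H // (w ∈ vN S ∧ w * star w * w = w ∧ w * q = w ∧ q * w = w) ∧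
    df α β w₁ ≤ df α β w}
  let r : X → X → Prop := fun w w' => w'.1 * (star w.1 * w.1) = w.1 ∧ df α β w.1 ≤ df α β w'.1
  obtain ⟨m, hm⟩ : ∃ m : X, ∀ a, r m a → r a m := by
    refine exists_maximal_of_chains_bounded (fun c hc => ?_) ?_
    · rcases c.eq_empty_or_nonempty with rfl | ⟨w₀, hw₀⟩
      · exact ⟨⟨w₁, ⟨hw₁, a1, a2, a3⟩, le_rfl⟩, by simp⟩
      obtain ⟨v, hv, v1, v2, v3, v4⟩ := chain_ub (S := S) hsq α β (Subtype.val '' c) (by
          rintro _ ⟨w, -, rfl⟩; exact w.2.1) (by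
          rintro _ ⟨w, hw, rfl⟩ _ ⟨w', hw', rfl⟩
          by_cases h : w = w'
          · subst h
            exact Or.inl ⟨by rw [← mul_assoc, w.2.1.2.1], le_rfl⟩
          · exact hc hw hw' h)
      exact ⟨⟨v, ⟨hv, v1, v2, v3⟩, w₀.2.2.trans (v4 _ ⟨w₀, hw₀, rfl⟩).2⟩,
        fun w hw => v4 _ ⟨w, hw, rfl⟩⟩
    · intro a b c hab hbc
      refine ⟨?_, hab.2.trans hbc.2⟩
      have pa := proj_src a.2.1.2.1
      have pb := proj_src b.2.1.2.1
      have e1 : star a.1 * a.1 * (star b.1 * b.1) * (star a.1 * a.1) = star a.1 * a.1 := by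
        have f1 : star a.1 * a.1 * star b.1 = star a.1 := by
          have := congrArg star hab.1
          rwa [star_mul, star_mul, star_star] at this
        rw [← mul_assoc _ (star b.1), f1, mul_assoc, hab.1]
      have e2 : star b.1 * b.1 * (star a.1 * a.1) = star a.1 * a.1 := by
        have hP := pb.isIdempotentElem.eq
        have hp := pa.isIdempotentElem.eq
        have hsP : star (star b.1 * b.1) = star b.1 * b.1 := pb.isSelfAdjoint
        have hsp : star (star a.1 * a.1) = star a.1 * a.1 := pa.isSelfAdjoint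
        generalize star b.1 * b.1 = P at *
        generalize star a.1 * a.1 = p at *
        refine sub_eq_zero.1 (eq_zero_of_src ?_)
        rw [star_sub, star_mul, hsP, hsp, sub_mul, mul_sub, mul_sub, ← mul_assoc, mul_assoc p P P,
          hP, ← mul_assoc, e1, hp]
        abel
      rw [← e2, ← mul_assoc, hbc.1, hab.1]
  obtain ⟨m, ⟨hmM, m1, m2, m3⟩, m4⟩ := m
  obtain ⟨u, hu, u1, u2⟩ := compl_equiv hz h2 hq pq hqz hmM m1 m2 m3
  have pe : IsStarProjection (q - star m * m) :=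
    proj_sub pq (proj_src m1) (by rw [mul_assoc, m2])
  have hee := pe.isIdempotentElem.eq
  have hse : star (q - star m * m) = q - star m * m := pe.isSelfAdjoint
  have hup : u * star u * u = u := by
    have e : star (u * star u * u - u) * (u * star u * u - u) = 0 := by
      have e1 : u * star u * u - u = u * (star u * u - 1) := by rw [mul_sub, mul_one, mul_assoc]
      rw [e1, star_mul, mul_assoc, ← mul_assoc (star u), u1, mul_sub, hee, mul_one, sub_self,
        mul_zero]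
    exact sub_eq_zero.1 (eq_zero_of_src e)
  refine ⟨u, hu, fun h0 => ?_, hup, ?_, ?_, fun v hv v1 v2 v3 => ?_⟩
  · rw [h0, mul_zero] at u1
    rw [h0, zero_mul] at u2
    have e1 := qf_star_mul m α
    have e2 := qf_mul_star m β
    have e3 := qf_star_mul q α
    have e4 := qf_star_mul q β
    rw [hsq, hqq] at e3 e4
    rw [← sub_eq_zero.1 u1.symm] at e1
    rw [← sub_eq_zero.1 u2.symm] at e2
    unfold df at m4 a4
    linarith
  · rw [← hup, mul_assoc u, u1, mul_assoc, sub_mul, hqq, mul_assoc, m2]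
  · rw [← hup, u2, ← mul_assoc, mul_sub, hqq, ← mul_assoc, m3]
  rw [u1] at v2 v3
  have hv' : u * v ∈ vN S := mul_mem hu hv
  have s1 : star (u * v) * (u * v) = star v * v := by
    rw [star_mul, mul_assoc, ← mul_assoc (star u), u1, v3]
  have p1 : u * v * star (u * v) * (u * v) = u * v := by
    rw [mul_assoc, s1, mul_assoc, ← mul_assoc v, v1]
  have hmu : star m * u = 0 := by
    rw [← hup, u2, ← mul_assoc, mul_sub, star_left hsq m3, ← mul_assoc, star_pi m1, sub_self,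
      zero_mul]
  have hvm : v * star m = 0 := by
    rw [← v2, mul_assoc, sub_mul, star_right hsq m2, star_pi m1, sub_self, mul_zero]
  have o1 : star m * (u * v) = 0 := by rw [← mul_assoc, hmu, zero_mul]
  have o2 : u * v * star m = 0 := by rw [mul_assoc, hvm, mul_zero]
  have o3 : star (u * v) * m = 0 := by
    have := congrArg star o1
    rwa [star_mul, star_star, star_zero] at this
  have o4 : m * star (u * v) = 0 := by
    have := congrArg star o2
    rwa [star_mul, star_star, star_zero] at this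
  have hs : star (m + u * v) * (m + u * v) = star m * m + star (u * v) * (u * v) := by
    rw [star_add, add_mul, mul_add, mul_add, o1, o3, add_zero, zero_add]
  have hr : (m + u * v) * star (m + u * v) = m * star m + u * v * star (u * v) := by
    rw [star_add, add_mul, mul_add, mul_add, o2, o4, add_zero, zero_add]
  have hdf : df α β (m + u * v) = df α β m + df α β (u * v) := by
    unfold df
    rw [← qf_star_mul, ← qf_mul_star, hs, hr, qf_add, qf_add, qf_star_mul, qf_star_mul,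
      qf_mul_star, qf_mul_star]
    ring
  have hle : df α β (u * v) ≤ 0 := by
    by_contra hc
    push Not at hc
    have hX : (m + u * v ∈ vN S ∧ (m + u * v) * star (m + u * v) * (m + u * v) = m + u * v ∧
        (m + u * v) * q = m + u * v ∧ q * (m + u * v) = m + u * v) ∧
        df α β w₁ ≤ df α β (m + u * v) := by
      refine ⟨⟨add_mem hmM hv', ?_, ?_, ?_⟩, by linarith⟩
      · rw [hr, add_mul, mul_add, mul_add, m1, p1, mul_assoc m, o1, mul_assoc (u * v), o3]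
        simp
      · rw [add_mul, m2, mul_assoc, ← v2, mul_assoc v, sub_mul, hqq, mul_assoc, m2]
      · rw [mul_add, m3, ← mul_assoc, ← hup, u2, ← mul_assoc, mul_sub, hqq, ← mul_assoc, m3]
    have := (hm ⟨_, hX⟩ ⟨by
      show (m + u * v) * (star m * m) = m
      rw [add_mul, ← mul_assoc, m1, ← mul_assoc, o2, zero_mul, add_zero],
      by show df α β m ≤ df α β (m + u * v); linarith⟩).2
    change df α β (m + u * v) ≤ df α β m at this
    linarith
  unfold df at hle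
  rw [← qf_star_mul (u * v), s1, qf_star_mul, star_mul, mul_apply_eq_comp] at hle
  linarith

end Vale.Agent.P096
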